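/-
S0010 (row 9): `Basic` = `BasicAdj` + `BasicCl` (import this one).
-/
import Crest.Agent.S0010.Defs
import Crest.Agent.S0010.BasicAdj
import Crest.Agent.S0010.BasicCl
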